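import Vale.Agent.P330.W.H709.LTCG
import Vale.Agent.P330.H855.RA

/-!
# Words in a fixed generating family: expansion and the size of the label set

`ExpP p L` (of `H709.LTCG`) is stable under: passing to the inverse permutations (adjoint
operator), conjugation (left and right multiplications), words of length `t`, adding identity
letters.  `match_left`: from one absolute contraction constant for the letters, label sets of
size `2 ^ (j * t)` with `4 L ≤ (c / (j t) ^ e * |A|) ^ 2`.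
-/

namespace Vale.Agent.P330.W.H972

open Finset
open Vale.Agent.P330.W.H709

variable {G H A : Type*} [Fintype G] [Fintype H] [Fintype A]

/-- the operator `f ↦ ∑ a, f (p a ·)` -/
def opP (p : A → Equiv.Perm G) (f : G → ℝ) (g : G) : ℝ := ∑ a, f (p a g)

theorem expP_iff (p : A → Equiv.Perm G) (L : ℝ) :
    ExpP p L ↔ ∀ f : G → ℝ, ∑ g, f g = 0 → ∑ g, opP p f g ^ 2 ≤ L * ∑ g, f g ^ 2 := Iff.rfl

theorem opP_sum (p : A → Equiv.Perm G) (f : G → ℝ) (hf : ∑ g, f g = 0) :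
    ∑ g, opP p f g = 0 := by
  unfold opP
  rw [Finset.sum_comm]
  exact Finset.sum_eq_zero fun a _ => by rw [Equiv.sum_comp (p a) f, hf]

theorem opP_adj (p : A → Equiv.Perm G) (f h : G → ℝ) :
    ∑ g, opP p f g * h g = ∑ g, f g * opP (fun a => (p a).symm) h g := by
  unfold opP
  simp only [Finset.sum_mul, Finset.mul_sum]
  rw [Finset.sum_comm, Finset.sum_comm (s := univ (α := G)) (t := univ (α := A))]
  refine Finset.sum_congr rfl fun a _ => ?_
  rw [← Equiv.sum_comp (p a) fun g => f g * h ((p a).symm g)]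
  simp

/-- the adjoint family has the same contraction constant -/
theorem expP_symm {p : A → Equiv.Perm G} {L : ℝ} (hL : 0 ≤ L) (h : ExpP p L) :
    ExpP (fun a => (p a).symm) L := by
  rw [expP_iff] at h ⊢
  intro f hf
  set u := opP (fun a => (p a).symm) f with hu
  have hu0 : ∑ g, u g = 0 := opP_sum _ f hf
  have h1 := h u hu0
  have h2 : ∑ g, u g ^ 2 = ∑ g, opP p u g * f g := by
    rw [opP_adj]
    exact Finset.sum_congr rfl fun g _ => by rw [← hu]; ring
  have h3 : (∑ g, u g ^ 2) ^ 2 ≤ (∑ g, opP p u g ^ 2) * ∑ g, f g ^ 2 := by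
    rw [h2]
    exact Finset.sum_mul_sq_le_sq_mul_sq _ _ _
  have h4 : (∑ g, u g ^ 2) ^ 2 ≤ (L * ∑ g, u g ^ 2) * ∑ g, f g ^ 2 :=
    h3.trans (mul_le_mul_of_nonneg_right h1 (Finset.sum_nonneg fun _ _ => sq_nonneg _))
  have h5 : 0 ≤ ∑ g, u g ^ 2 := Finset.sum_nonneg fun _ _ => sq_nonneg _
  rcases h5.eq_or_lt with h6 | h6
  · rw [← h6]
    exact mul_nonneg hL (Finset.sum_nonneg fun _ _ => sq_nonneg _)
  · have h7 : (∑ g, u g ^ 2) * (∑ g, u g ^ 2) ≤ (∑ g, u g ^ 2) * (L * ∑ g, f g ^ 2) := by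
      nlinarith
    exact le_of_mul_le_mul_left h7 h6

/-- transport along a bijection of the sites -/
theorem expP_congr {p : A → Equiv.Perm G} {q : A → Equiv.Perm H} (e : G ≃ H)
    (he : ∀ a g, e (p a g) = q a (e g)) {L : ℝ} (h : ExpP p L) : ExpP q L := by
  rw [expP_iff] at h ⊢
  intro f hf
  have h1 := h (fun g => f (e g)) (by rw [Equiv.sum_comp e f, hf])
  rw [← Equiv.sum_comp e fun g => f g ^ 2, ← Equiv.sum_comp e fun g => opP q f g ^ 2]
  refine le_trans (le_of_eq ?_) h1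
  refine Finset.sum_congr rfl fun g _ => ?_
  simp only [opP, he]

/-- transport along a bijection of the labels -/
theorem expP_reindex {B : Type*} [Fintype B] {p : A → Equiv.Perm G} (e : B ≃ A) {L : ℝ}
    (h : ExpP p L) : ExpP (fun b => p (e b)) L := by
  rw [expP_iff] at h ⊢
  intro f hf
  refine le_trans (le_of_eq ?_) (h f hf)
  refine Finset.sum_congr rfl fun g _ => ?_
  simp only [opP]
  rw [Equiv.sum_comp e fun a => f (p a g)]

theorem ExpP.mono' {p : A → Equiv.Perm G} {L L' : ℝ} (hL : L ≤ L') (h : ExpP p L) : ExpP p L' := by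
  intro f hf
  exact (h f hf).trans (mul_le_mul_of_nonneg_right hL (Finset.sum_nonneg fun _ _ => sq_nonneg _))

/-- the spectral gap in the form of `H855` -/
theorem gap_of_expP [Nonempty A] {p : A → Equiv.Perm G} {l : ℝ} (hl : 0 ≤ l)
    (h : ExpP p (l ^ 2)) : H855.Gap p (l / Fintype.card A) := by
  intro f hf
  have hA : (0 : ℝ) < Fintype.card A := by exact_mod_cast Fintype.card_pos
  have h1 := h f hf
  have e1 : ∑ g, f g * H855.avg p f g = (∑ g, f g * opP p f g) / Fintype.card A := by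
    rw [Finset.sum_div]
    refine Finset.sum_congr rfl fun g _ => ?_
    unfold H855.avg opP
    rw [mul_div_assoc]
  have hF : 0 ≤ ∑ g, f g ^ 2 := Finset.sum_nonneg fun _ _ => sq_nonneg _
  have h2 : (∑ g, f g * opP p f g) ^ 2 ≤ (∑ g, f g ^ 2) * ∑ g, opP p f g ^ 2 :=
    Finset.sum_mul_sq_le_sq_mul_sq _ _ _
  have h3 : |∑ g, f g * opP p f g| ≤ l * ∑ g, f g ^ 2 := by
    refine abs_le_of_sq_le_sq ?_ (mul_nonneg hl hF)
    calc (∑ g, f g * opP p f g) ^ 2 ≤ (∑ g, f g ^ 2) * ∑ g, opP p f g ^ 2 := h2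
      _ ≤ (∑ g, f g ^ 2) * (l ^ 2 * ∑ g, f g ^ 2) := mul_le_mul_of_nonneg_left h1 hF
      _ = (l * ∑ g, f g ^ 2) ^ 2 := by ring
  rw [e1, abs_div, abs_of_pos hA, div_mul_eq_mul_div]
  exact div_le_div_of_nonneg_right h3 hA.le

/-! ### Identity letters -/

/-- add identity letters -/
def padP (r : ℕ) (p : A → Equiv.Perm G) : A ⊕ Fin r → Equiv.Perm G :=
  Sum.elim p fun _ => 1

theorem expP_pad {p : A → Equiv.Perm G} {l : ℝ} (hl : 0 ≤ l) (h : ExpP p (l ^ 2)) (r : ℕ) :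
    ExpP (padP r p) ((l + r) ^ 2) := by
  rw [expP_iff] at h ⊢
  intro f hf
  have h1 := h f hf
  have e1 : ∀ g, opP (padP r p) f g = opP p f g + r * f g := by
    intro g
    simp [opP, padP, Fintype.sum_sum_type]
  have h2 : (∑ g, opP p f g * f g) ^ 2 ≤ (∑ g, opP p f g ^ 2) * ∑ g, f g ^ 2 :=
    Finset.sum_mul_sq_le_sq_mul_sq _ _ _
  have hF : 0 ≤ ∑ g, f g ^ 2 := Finset.sum_nonneg fun _ _ => sq_nonneg _
  have h3 : ∑ g, opP p f g * f g ≤ l * ∑ g, f g ^ 2 := by
    refine le_of_sq_le_sq ?_ (mul_nonneg hl hF)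
    calc (∑ g, opP p f g * f g) ^ 2 ≤ (∑ g, opP p f g ^ 2) * ∑ g, f g ^ 2 := h2
      _ ≤ (l ^ 2 * ∑ g, f g ^ 2) * ∑ g, f g ^ 2 := mul_le_mul_of_nonneg_right h1 hF
      _ = (l * ∑ g, f g ^ 2) ^ 2 := by ring
  have e2 : ∑ g, opP (padP r p) f g ^ 2 =
      ∑ g, opP p f g ^ 2 + 2 * r * ∑ g, opP p f g * f g + r ^ 2 * ∑ g, f g ^ 2 := by
    rw [Finset.mul_sum, Finset.mul_sum, ← Finset.sum_add_distrib, ← Finset.sum_add_distrib]
    refine Finset.sum_congr rfl fun g _ => ?_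
    rw [e1]; ring
  rw [e2]
  have hr : (0 : ℝ) ≤ 2 * r := by positivity
  have h4 := mul_le_mul_of_nonneg_left h3 hr
  nlinarith

/-! ### Words -/

/-- the permutation of a word -/
def wordP (p : A → Equiv.Perm G) : (t : ℕ) → (Fin t → A) → Equiv.Perm G
  | 0, _ => 1
  | t + 1, w => p (w 0) * wordP p t (fun i => w i.succ)

omit [Fintype G] in
theorem opP_wordP (p : A → Equiv.Perm G) (t : ℕ) (f : G → ℝ) :
    opP (wordP p (t + 1)) f = opP (wordP p t) (opP p f) := by
  funext g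
  unfold opP
  rw [← Equiv.sum_comp (Fin.consEquiv fun _ : Fin (t + 1) => A) fun w => f (wordP p (t + 1) w g)]
  rw [Fintype.sum_prod_type, Finset.sum_comm]
  refine Finset.sum_congr rfl fun w _ => Finset.sum_congr rfl fun a _ => ?_
  simp [wordP, Fin.consEquiv]

theorem expP_word {p : A → Equiv.Perm G} {L : ℝ} (hL : 0 ≤ L) (h : ExpP p L) (t : ℕ) :
    ExpP (wordP p t) (L ^ t) := by
  induction t with
  | zero =>
    intro f _
    simp [wordP]
  | succ t ih =>
    rw [expP_iff] at h ih ⊢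
    intro f hf
    rw [opP_wordP]
    calc ∑ g, opP (wordP p t) (opP p f) g ^ 2 ≤ L ^ t * ∑ g, opP p f g ^ 2 :=
          ih _ (opP_sum p f hf)
      _ ≤ L ^ t * (L * ∑ g, f g ^ 2) := mul_le_mul_of_nonneg_left (h f hf) (by positivity)
      _ = L ^ (t + 1) * ∑ g, f g ^ 2 := by ring

/-! ### Groups -/

section Group

variable {G : Type*} [Group G]

/-- product of the letters of a word -/
def wordG (α : A → G) : (t : ℕ) → (Fin t → A) → G
  | 0, _ => 1
  | t + 1, w => α (w 0) * wordG α t (fun i => w i.succ)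

omit [Fintype A] in
theorem wordP_left (α : A → G) (t : ℕ) (w : Fin t → A) :
    wordP (fun a => Equiv.mulLeft (α a)) t w = Equiv.mulLeft (wordG α t w) := by
  induction t with
  | zero => ext g; simp [wordP, wordG]
  | succ t ih => ext g; simp [wordP, wordG, ih]

variable [Fintype G]

theorem expP_left_inv {α : A → G} {L : ℝ} (hL : 0 ≤ L)
    (h : ExpP (fun a => Equiv.mulLeft (α a)) L) :
    ExpP (fun a => (Equiv.mulLeft (α a)).symm) L := expP_symm hL h

theorem expP_right {α : A → G} {L : ℝ} (hL : 0 ≤ L)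
    (h : ExpP (fun a => Equiv.mulLeft (α a)) L) :
    ExpP (fun a => Equiv.mulRight (α a)) L := by
  refine expP_congr (Equiv.inv G) ?_ (expP_symm hL h)
  intro a g
  simp [Equiv.mulLeft_symm, mul_inv_rev]

theorem expP_right_inv {α : A → G} {L : ℝ} (hL : 0 ≤ L)
    (h : ExpP (fun a => Equiv.mulLeft (α a)) L) :
    ExpP (fun a => (Equiv.mulRight (α a)).symm) L := expP_symm hL (expP_right hL h)

/-- the letters, padded by `1` to a family indexed by `Fin n` -/
def padG {n0 : ℕ} (α0 : Fin n0 → G) (n : ℕ) (i : Fin n) : G :=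
  if h : i.1 < n0 then α0 ⟨i.1, h⟩ else 1

omit [Fintype G] in
/-- the label set: all words of length `t` in `2 ^ j` letters, numbered by `Fin (2 ^ (j * t))` -/
def labels {n0 : ℕ} (α0 : Fin n0 → G) (j t : ℕ) (b : Fin (2 ^ (j * t))) : G :=
  wordG (padG α0 (2 ^ j)) t (finFunctionFinEquiv.symm (Fin.cast (pow_mul 2 j t) b))

theorem expP_padG {n0 : ℕ} (α0 : Fin n0 → G) {n : ℕ} (hn : n0 ≤ n) {l : ℝ} (hl : 0 ≤ l)
    (h : ExpP (fun a => Equiv.mulLeft (α0 a)) (l ^ 2)) :
    ExpP (fun a => Equiv.mulLeft (padG α0 n a)) ((l + (n - n0 : ℕ)) ^ 2) := by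
  have h1 := expP_pad hl h (n - n0)
  have e : n = n0 + (n - n0) := by omega
  have h2 := expP_reindex ((finCongr e).trans finSumFinEquiv.symm) h1
  have h3 : (fun b => padP (n - n0) (fun a => Equiv.mulLeft (α0 a))
      (((finCongr e).trans finSumFinEquiv.symm) b)) = fun a => Equiv.mulLeft (padG α0 n a) := by
    funext b
    have hb : ∀ x : Fin n0 ⊕ Fin (n - n0), b = (finCongr e).symm (finSumFinEquiv x) →
        padP (n - n0) (fun a => Equiv.mulLeft (α0 a)) x = Equiv.mulLeft (padG α0 n b) := by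
      rintro (x | x) rfl
      · ext g
        simp [padP, padG]
      · ext g
        simp [padP, padG]
    exact hb _ (by simp)
  rw [h3] at h2
  exact h2

theorem expP_labels {n0 : ℕ} (α0 : Fin n0 → G) {j : ℕ} (hn : n0 ≤ 2 ^ j) {l : ℝ} (hl : 0 ≤ l)
    (h : ExpP (fun a => Equiv.mulLeft (α0 a)) (l ^ 2)) (t : ℕ) :
    ExpP (fun b => Equiv.mulLeft (labels α0 j t b)) (((l + (2 ^ j - n0 : ℕ)) ^ 2) ^ t) := by
  have h1 := expP_word (sq_nonneg _) (expP_padG α0 hn hl h) t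
  have h2 := expP_reindex ((finCongr (pow_mul 2 j t)).trans finFunctionFinEquiv.symm) h1
  have h3 : (fun b => wordP (fun a => Equiv.mulLeft (padG α0 (2 ^ j) a)) t
      (((finCongr (pow_mul 2 j t)).trans finFunctionFinEquiv.symm) b)) =
      fun b => Equiv.mulLeft (labels α0 j t b) := by
    funext b
    rw [wordP_left]
    rfl
  rw [h3] at h2
  exact h2

end Group

/-! ### Choice of the parameters -/

theorem exists_len (l : ℝ) (n0 : ℕ) (h0 : 0 ≤ l) (h1 : l < n0) (c : ℝ) (hc : 0 < c) (e m0 : ℕ) :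
    ∃ j t : ℕ, n0 ≤ 2 ^ j ∧ 0 < t ∧ m0 ≤ j * t ∧
      4 * ((l + (2 ^ j - n0 : ℕ)) ^ 2) ^ t ≤ (c / (j * t : ℕ) ^ e * (2 ^ (j * t) : ℕ)) ^ 2 := by
  obtain ⟨j, hj⟩ : ∃ j : ℕ, 0 < j ∧ n0 ≤ 2 ^ j :=
    ⟨n0 + 1, by omega, (Nat.lt_two_pow_self (n := n0 + 1)).le.trans' (by omega)⟩
  obtain ⟨hj0, hj⟩ := hj
  have hp : (0 : ℝ) < 2 ^ j := by positivity
  set r : ℝ := (l + (2 ^ j - n0 : ℕ)) / 2 ^ j with hr
  have hcast : ((2 ^ j - n0 : ℕ) : ℝ) = 2 ^ j - n0 := by
    rw [Nat.cast_sub hj]; push_cast; ring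
  have hr0 : 0 ≤ r := by positivity
  have hr1 : r < 1 := by
    rw [hr, div_lt_one hp, hcast]
    linarith
  -- `t ^ e * r ^ t → 0`
  have hlim := tendsto_pow_const_mul_const_pow_of_lt_one e hr0 hr1
  have hcj : 0 < c / (2 * (j : ℝ) ^ e) := by
    have : (0 : ℝ) < j := by exact_mod_cast hj0
    positivity
  have hev := (hlim.eventually (gt_mem_nhds hcj)).and (Filter.eventually_ge_atTop (m0 + 1))
  obtain ⟨t, ht1, ht2⟩ := hev.exists
  have ht0 : 0 < t := by omega
  refine ⟨j, t, hj, ht0, ?_, ?_⟩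
  · calc m0 ≤ t := by omega
      _ = 1 * t := (one_mul t).symm
      _ ≤ j * t := Nat.mul_le_mul_right t hj0
  · have hjr : (0 : ℝ) < j := by exact_mod_cast hj0
    have htr : (0 : ℝ) < t := by exact_mod_cast ht0
    have e1 : l + (2 ^ j - n0 : ℕ) = r * 2 ^ j := by
      rw [hr]; field_simp
    have e2 : 4 * ((l + (2 ^ j - n0 : ℕ)) ^ 2) ^ t = (2 * r ^ t * 2 ^ (j * t)) ^ 2 := by
      rw [e1, pow_mul 2 j t, ← pow_mul, mul_comm 2 t, pow_mul, mul_pow r]
      generalize r ^ t = x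
      ring
    rw [e2]
    have h5 : 2 * r ^ t ≤ c / ((j : ℝ) * t) ^ e := by
      rw [lt_div_iff₀ (by positivity)] at ht1
      rw [le_div_iff₀ (by positivity), mul_pow]
      nlinarith
    refine pow_le_pow_left₀ (by positivity) ?_ 2
    push_cast
    exact mul_le_mul_of_nonneg_right h5 (by positivity)

end Vale.Agent.P330.W.H972
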