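import Mathlib

/-!
# Information sets

`exists_info`: a subspace `P` of `ι → K` has an information set of size `finrank P`.
`exists_choice`: if `2 * finrank P < |ι|`, there are a permutation `π` of the coordinates,
disjoint information sets `B1` of `P` and `B2` of the permuted space, and a coordinate `b0`
outside both.
-/

namespace Vale.Agent.P330.W.H972

open Finset Module

variable {ι K : Type*} [Fintype ι] [DecidableEq ι] [Field K]

/-- `B` is an information set of `P`: words of `P` vanishing on `B` are zero -/
def IsInfo (P : Submodule K (ι → K)) (B : Finset ι) : Prop :=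
  ∀ x ∈ P, (∀ i ∈ B, x i = 0) → x = 0

/-- a subspace has an information set of size `finrank P` -/
theorem exists_info (P : Submodule K (ι → K)) :
    ∃ B : Finset ι, #B = finrank K P ∧ IsInfo P B := by
  induction h : finrank K P generalizing P with
  | zero =>
    refine ⟨∅, rfl, fun x hx _ => ?_⟩
    have h0 : P = ⊥ := Submodule.finrank_eq_zero.1 h
    rw [h0] at hx
    simpa using hx
  | succ n ih =>
    -- a nonzero word and a coordinate where it does not vanish
    have hne : P ≠ ⊥ := by
      intro h0
      rw [h0, finrank_bot] at h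
      omega
    obtain ⟨x, hx, hx0⟩ := (Submodule.ne_bot_iff P).1 hne
    obtain ⟨i, hi⟩ : ∃ i, x i ≠ 0 := by
      by_contra hc
      push Not at hc
      exact hx0 (funext hc)
    let f : P →ₗ[K] K := (LinearMap.proj i).comp P.subtype
    have hf : f ≠ 0 := by
      intro h0
      have := congrArg (fun g : P →ₗ[K] K => g ⟨x, hx⟩) h0
      exact hi (by simpa [f] using this)
    have hk := Module.Dual.finrank_ker_add_one_of_ne_zero (f := f) hf
    let Q : Submodule K (ι → K) := f.ker.map P.subtype
    have hQ : finrank K Q = n := by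
      have : finrank K Q = finrank K f.ker :=
        (Submodule.equivMapOfInjective P.subtype P.injective_subtype f.ker).finrank_eq.symm
      omega
    obtain ⟨B, hB, hBi⟩ := ih Q hQ
    have hiB : ∀ y ∈ Q, y i = 0 := by
      rintro y ⟨z, hz, rfl⟩
      simpa [f] using hz
    have hmem : ∀ y ∈ P, y i = 0 → y ∈ Q := by
      intro y hy hyi
      exact ⟨⟨y, hy⟩, by simpa [f] using hyi, rfl⟩
    by_cases hc : i ∈ B
    · -- then `B` is too large by one: replace it
      exfalso
      -- the words of `Q` vanish at `i`, so `B.erase i` is an information set of `Q`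
      have h1 : IsInfo Q (B.erase i) := by
        intro y hy hyB
        refine hBi y hy fun j hj => ?_
        by_cases hji : j = i
        · rw [hji]; exact hiB y hy
        · exact hyB j (Finset.mem_erase.2 ⟨hji, hj⟩)
      -- but an information set has at least `finrank` elements
      have h2 : finrank K Q ≤ #(B.erase i) := by
        let g : Q →ₗ[K] (B.erase i → K) :=
          LinearMap.pi fun j => (LinearMap.proj j.1).comp Q.subtype
        have hg : Function.Injective g := by
          rw [← LinearMap.ker_eq_bot, LinearMap.ker_eq_bot']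
          intro y hy
          refine Subtype.ext (h1 y y.2 fun j hj => ?_)
          have := congrFun hy ⟨j, hj⟩
          simpa [g] using this
        have := LinearMap.finrank_le_finrank_of_injective hg
        rwa [Module.finrank_fintype_fun_eq_card, Fintype.card_coe] at this
      rw [Finset.card_erase_of_mem hc] at h2
      have : 0 < #B := Finset.card_pos.2 ⟨i, hc⟩
      omega
    · refine ⟨insert i B, by rw [Finset.card_insert_of_notMem hc, hB], fun y hy hyB => ?_⟩
      have hyi : y i = 0 := hyB i (Finset.mem_insert_self _ _)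
      exact hBi y (hmem y hy hyi) fun j hj => hyB j (Finset.mem_insert_of_mem hj)

/-- the space of the words whose permuted version is in `P` -/
def permSub (π : Equiv.Perm ι) (P : Submodule K (ι → K)) : Submodule K (ι → K) :=
  P.comap (LinearMap.funLeft K K π)

omit [Fintype ι] [DecidableEq ι] in
theorem mem_permSub {π : Equiv.Perm ι} {P : Submodule K (ι → K)} {x : ι → K} :
    x ∈ permSub π P ↔ (fun i => x (π i)) ∈ P := Iff.rfl

omit [Fintype ι] in
theorem isInfo_perm {π : Equiv.Perm ι} {P : Submodule K (ι → K)} {B : Finset ι}
    (h : IsInfo P B) : IsInfo (permSub π P) (B.image π) := by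
  intro x hx hB
  have h1 := h _ hx fun i hi => hB (π i) (Finset.mem_image_of_mem _ hi)
  funext i
  have := congrFun h1 (π.symm i)
  simpa using this

/-- two disjoint sets of the same size are exchanged by a permutation -/
theorem exists_perm_disjoint (B : Finset ι) (hB : 2 * #B ≤ Fintype.card ι) :
    ∃ π : Equiv.Perm ι, Disjoint B (B.image π) := by
  have h1 : #B ≤ #(Bᶜ) := by
    rw [Finset.card_compl]; omega
  obtain ⟨C, hC, hCc⟩ := Finset.exists_subset_card_eq h1
  have e : B ≃ C := Finset.equivOfCardEq hCc.symm
  obtain ⟨π, hπ⟩ := Equiv.Perm.exists_extending_pair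
    (fun i : Fin #B => ((B.equivFin.symm i : B) : ι))
    (fun i : Fin #B => ((e (B.equivFin.symm i) : C) : ι))
    (fun i j hij => by simpa using hij) (fun i j hij => by simpa using hij)
  refine ⟨π, ?_⟩
  rw [Finset.disjoint_left]
  intro b hb hb'
  obtain ⟨c, hc, hcb⟩ := Finset.mem_image.1 hb'
  have : π c = (e ⟨c, hc⟩ : C) := by
    have := hπ (B.equivFin ⟨c, hc⟩)
    simpa using this
  have h2 : b ∈ C := by rw [← hcb, this]; exact (e ⟨c, hc⟩).2
  exact (Finset.mem_compl.1 (hC h2)) hb

/-- **Choice of the labels.** -/
theorem exists_choice (P : Submodule K (ι → K)) (hP : 2 * finrank K P < Fintype.card ι) :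
    ∃ (B1 B2 : Finset ι) (b0 : ι) (π : Equiv.Perm ι),
      #B1 = finrank K P ∧ B2 = B1.image π ∧ #B2 = finrank K P ∧ Disjoint B1 B2 ∧
      b0 ∉ B1 ∧ b0 ∉ B2 ∧ IsInfo P B1 ∧ IsInfo (permSub π P) B2 := by
  obtain ⟨B1, hB1, hi⟩ := exists_info P
  obtain ⟨π, hπ⟩ := exists_perm_disjoint B1 (by omega)
  have hc : #(B1.image π) = #B1 := Finset.card_image_of_injective _ π.injective
  have hu : #(B1 ∪ B1.image π) < Fintype.card ι := by
    refine lt_of_le_of_lt (Finset.card_union_le _ _) ?_
    omega
  obtain ⟨b0, hb0⟩ : ∃ b, b ∉ B1 ∪ B1.image π := by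
    by_contra hcon
    push Not at hcon
    have : B1 ∪ B1.image π = univ := Finset.eq_univ_iff_forall.2 hcon
    rw [this, Finset.card_univ] at hu
    omega
  rw [Finset.mem_union, not_or] at hb0
  exact ⟨B1, B1.image π, b0, π, hB1, rfl, by omega, hπ, hb0.1, hb0.2, hi, isInfo_perm hi⟩

end Vale.Agent.P330.W.H972
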